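import Vale.Agent.P098.Check6.Tree

/-!
P211, checker for symmetric three by three matrices and scalars of tensor Bernstein forms, on the
packed lanes of the checker of P098.  A box may carry constraints: extra tensors, at an index past
the matrix, that are assumed nonnegative; a box on which one of them is negative is skipped.
-/

namespace Vale.Agent.P211.Cert.Check

open Vale.Agent.P098.Check6

/-- Three values, kept apart so that the kernel reads them by projection. -/
structure V3 (α : Type) where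
  a0 : α
  a1 : α
  a2 : α

namespace V3

variable {α β : Type}

/-- The value of an index. -/
def get (v : V3 α) : Fin 3 → α
  | 0 => v.a0
  | 1 => v.a1
  | 2 => v.a2

/-- Three values of a map. -/
def map (f : α → β) (v : V3 α) : V3 β := ⟨f v.a0, f v.a1, f v.a2⟩

/-- All of three tests. -/
def all (v : V3 Bool) : Bool := v.a0 && v.a1 && v.a2

/-- Columns as rows. -/
def cols (m : V3 (V3 α)) : V3 (V3 α) := ⟨m.map a0, m.map a1, m.map a2⟩

/-- The sum. -/
def total (v : V3 ℕ) : ℕ := Nat.add (Nat.add v.a0 v.a1) v.a2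

end V3

/-- The place of an entry in the upper triangle, row by row. -/
def tri (i j : Fin 3) : ℕ :=
  min i.val j.val * (5 - min i.val j.val) / 2 + max i.val j.val

/-- The data of a leaf, by rows: the congruence, its inverse times `c`, and the weights. -/
structure Cong where
  T : V3 (V3 ℤ)
  Tinv : V3 (V3 ℤ)
  c : ℕ
  w : V3 ℕ

/-- A leaf: dominance after a congruence, or a constraint which is negative on the box. -/
inductive Leaf : Type
  | psd (d : Cong)
  | skip (i : ℕ)

/-- A bisection tree with leaves in `L`. -/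
inductive Tree (L : Type) : Type
  | leaf (l : L)
  | node (axis : ℕ) (l r : Tree L)

/-- An integer combination of three differences. -/
noncomputable def dotP (t : V3 ℤ) (x : V3 Pr) : Pr :=
  acc t.a2 x.a2 (acc t.a1 x.a1 (acc t.a0 x.a0 (0, 0)))

/-- The full matrix of the packed entries. -/
def matP : List ℕ → V3 (V3 Pr)
  | x00 :: x01 :: x02 :: x11 :: x12 :: x22 :: _ =>
    ⟨⟨(x00, 0), (x01, 0), (x02, 0)⟩, ⟨(x01, 0), (x11, 0), (x12, 0)⟩,
      ⟨(x02, 0), (x12, 0), (x22, 0)⟩⟩
  | _ =>
    let z : V3 Pr := ⟨(0, 0), (0, 0), (0, 0)⟩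
    ⟨z, z, z⟩

/-- The sums of the columns of the congruence, which carry the offset. -/
noncomputable def colP (d : Cong) : V3 Pr :=
  d.T.cols.map fun c =>
    let s := c.map signP
    (V3.total (s.map Prod.fst), V3.total (s.map Prod.snd))

/-- One congruent entry, biased by the top bit: `t`, `x` are a column of the congruence and of the
entries times the congruence, `p`, `q` the two column sums. -/
noncomputable def biasP (cf : Cfg) (t : V3 ℤ) (x : V3 Pr) (p q : Pr) : ℕ :=
  let b := dotP t x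
  Nat.sub
    (Nat.add b.1 (Nat.mul (Nat.add (2 ^ (cf.k - 1))
      (Nat.mul cf.C (Nat.add (Nat.mul p.1 q.2) (Nat.mul p.2 q.1)))) (onesP cf)))
    (Nat.add b.2 (Nat.mul (Nat.mul cf.C (Nat.add (Nat.mul p.1 q.1) (Nat.mul p.2 q.2))) (onesP cf)))

/-- The congruent matrix, biased, computed above the diagonal. -/
noncomputable def congP (cf : Cfg) (s : St) (d : Cong) : V3 (V3 ℕ) :=
  let c := d.T.cols
  let m := matP s.Ys
  let u := c.map fun t => m.map (dotP t)
  let σ := colP d
  let b := biasP cf
  let b00 := b c.a0 u.a0 σ.a0 σ.a0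
  let b01 := b c.a0 u.a1 σ.a0 σ.a1
  let b02 := b c.a0 u.a2 σ.a0 σ.a2
  let b11 := b c.a1 u.a1 σ.a1 σ.a1
  let b12 := b c.a1 u.a2 σ.a1 σ.a2
  let b22 := b c.a2 u.a2 σ.a2 σ.a2
  ⟨⟨b00, b01, b02⟩, ⟨b01, b11, b12⟩, ⟨b02, b12, b22⟩⟩

/-- The rows of the inverse which are nonnegative and see only the coordinates of the cone. -/
def posRows (cone : V3 Bool) (d : Cong) : V3 Bool :=
  d.Tinv.map fun r => (bif cone.a0 then nonnegZ r.a0 else isZ r.a0) &&
    (bif cone.a1 then nonnegZ r.a1 else isZ r.a1) && (bif cone.a2 then nonnegZ r.a2 else isZ r.a2)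

/-- The absolute column sums of the congruence. -/
noncomputable def colAbs (d : Cong) : V3 ℕ := (colP d).map fun p => Nat.add p.1 p.2

/-- The weighted total of the column sums. -/
noncomputable def wTotal (d : Cong) : ℕ :=
  let a := colAbs d
  V3.total ⟨Nat.mul a.a0 d.w.a0, Nat.mul a.a1 d.w.a1, Nat.mul a.a2 d.w.a2⟩

/-- One row of the test, biased: `B` is the row, `a` its column sum, `i` its index. -/
noncomputable def rowP (cone : V3 Bool) (cf : Cfg) (s : St) (d : Cong) (B : V3 ℕ) (p : Bool)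
    (a i diag w : ℕ) : ℕ :=
  let ps := posRows cone d
  let off := fun (j : ℕ) (q : Bool) (v L : ℕ) =>
    bif Nat.beq i j then 0 else Nat.mul v (costP cf (p && q) L)
  Nat.sub (Nat.add (Nat.mul w diag) (topP cf))
    (Nat.add (Nat.mul w (topP cf))
      (Nat.add (V3.total ⟨off 0 ps.a0 d.w.a0 B.a0, off 1 ps.a1 d.w.a1 B.a1,
        off 2 ps.a2 d.w.a2 B.a2⟩) (Nat.mul (Nat.mul (Nat.mul s.E a) (wTotal d)) (onesP cf))))

/-- A column as one of six values, for the masks of the faces. -/
def pad (t : V3 ℤ) : V6 ℤ := ⟨t.a0, t.a1, t.a2, 0, 0, 0⟩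

/-- The test of one row. -/
noncomputable def rowOk (cone : V3 Bool) (cf : Cfg) (s : St) (d : Cong) (B : V3 ℕ) (p : Bool)
    (a i diag w : ℕ) (t : V3 ℤ) : Bool :=
  let sel := selP cf (pad t) s.faces
  Nat.beq (Nat.land (rowP cone cf s d B p a i diag w) sel) sel

/-- The test of all rows. -/
noncomputable def rowsOk (cone : V3 Bool) (cf : Cfg) (s : St) (d : Cong) : Bool :=
  let B := congP cf s d
  let a := colAbs d
  let p := posRows cone d
  let c := d.T.cols
  rowOk cone cf s d B.a0 p.a0 a.a0 0 B.a0.a0 d.w.a0 c.a0 &&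
    rowOk cone cf s d B.a1 p.a1 a.a1 1 B.a1.a1 d.w.a1 c.a1 &&
    rowOk cone cf s d B.a2 p.a2 a.a2 2 B.a2.a2 d.w.a2 c.a2

/-- The test that `T` times the alleged inverse is `c`. -/
noncomputable def invOk (d : Cong) : Bool :=
  let c := d.Tinv.cols.map fun v => v.map signP
  let eq := fun (x : Pr) (e : ℕ) => Nat.beq x.1 (Nat.add x.2 e)
  let ok := fun (r : V3 ℤ) (e : V3 ℕ) =>
    V3.all ⟨eq (dotP r c.a0) e.a0, eq (dotP r c.a1) e.a1, eq (dotP r c.a2) e.a2⟩
  V3.all ⟨ok d.T.a0 ⟨d.c, 0, 0⟩, ok d.T.a1 ⟨0, d.c, 0⟩, ok d.T.a2 ⟨0, 0, d.c⟩⟩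

/-- The bound which keeps all lanes apart. -/
noncomputable def boundOk (cf : Cfg) (s : St) (d : Cong) : Bool :=
  let W := wTotal d
  ((colAbs d).map fun a =>
    Nat.blt (Nat.mul (Nat.mul (Nat.add cf.C s.E) a) W) (2 ^ (cf.k - 1))).all

/-- The test that tensor `i`, an index from `base` on, is negative on the whole box. -/
def skipOk (cf : Cfg) (s : St) (base i : ℕ) : Bool :=
  Nat.blt 0 cf.k && Nat.ble base i && Nat.blt i s.Ys.length &&
    Nat.blt (Nat.add cf.C (Nat.add s.E 1)) (2 ^ (cf.k - 1)) &&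
    Nat.beq (Nat.land (Nat.sub (Nat.mul (Nat.add (2 ^ (cf.k - 1)) cf.C) (onesP cf))
      (Nat.add (s.Ys.getD i 0) (Nat.mul (Nat.add s.E 1) (onesP cf)))) (topP cf)) (topP cf)

/-- The test that tensor `0` is nonnegative off the faces on which it vanishes. -/
def signOk (cf : Cfg) (s : St) : Bool :=
  let sel := selP cf ⟨1, 0, 0, 0, 0, 0⟩ s.faces
  Nat.blt 0 cf.k && Nat.blt 0 s.Ys.length &&
    Nat.blt (Nat.add cf.C s.E) (2 ^ (cf.k - 1)) &&
    Nat.beq (Nat.land (Nat.sub (Nat.add (s.Ys.getD 0 0) (topP cf))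
      (Nat.mul (Nat.add cf.C s.E) (onesP cf))) sel) sel

/-- The test of a leaf of the matrix checker. -/
noncomputable def leafOk (cone : V3 Bool) (cf : Cfg) (s : St) : Leaf → Bool
  | .psd d => Nat.blt 0 cf.k && Nat.blt 0 d.c && (d.w.map fun w => Nat.blt 0 w).all &&
      Nat.ble 6 s.Ys.length && invOk d && boundOk cf s d && rowsOk cone cf s d
  | .skip i => skipOk cf s 6 i

/-- The test of a leaf of the scalar checker: nothing, or the index of a negative constraint. -/
def signLeafOk (cf : Cfg) (s : St) : Option ℕ → Bool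
  | none => signOk cf s
  | some i => skipOk cf s 1 i

/-- The test of a tree. -/
noncomputable def check {L : Type} (test : St → L → Bool) (cf : Cfg) : Tree L → St → Bool
  | .leaf l, s => test s l
  | .node a l r, s =>
    stepOk cf a && check test cf l (step cf a false s) && check test cf r (step cf a true s)

end Vale.Agent.P211.Cert.Check
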