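import Vale.Agent.P211.Cert.Check.Defs

/-!
P211, checker: a matrix leaf which passes proves that the matrix is nonnegative on the cone at
every point of its box.
-/

namespace Vale.Agent.P211.Cert.Check

open Finset Vale.Agent.P098.Check6

namespace V3

variable {α β : Type}

lemma get_map (f : α → β) (v : V3 α) (i : Fin 3) : (v.map f).get i = f (v.get i) := by
  fin_cases i <;> rfl

lemma get_cols (m : V3 (V3 α)) (i j : Fin 3) : (m.cols.get i).get j = (m.get j).get i := by
  fin_cases i <;> fin_cases j <;> rfl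

lemma of_all {v : V3 Bool} (h : v.all = true) (i : Fin 3) : v.get i = true := by
  simp only [all, Bool.and_eq_true] at h
  fin_cases i <;> simp [get, h]

lemma total_eq (v : V3 ℕ) : v.total = ∑ i, v.get i := by
  rw [Fin.sum_univ_three]; rfl

end V3

lemma dotP_eq (t : V3 ℤ) (x : V3 Pr) : ((dotP t x).1 : ℤ) - (dotP t x).2 =
    ∑ i, t.get i * (((x.get i).1 : ℤ) - (x.get i).2) := by
  simp [dotP, acc_eq, Fin.sum_univ_three, V3.get]

lemma tri_min_max (i j : Fin 3) : tri (min i j) (max i j) = tri i j := by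
  fin_cases i <;> fin_cases j <;> rfl

lemma tri_lt (i j : Fin 3) : tri i j < 6 := by
  fin_cases i <;> fin_cases j <;> decide

lemma matP_get {Ys : List ℕ} (h : 6 ≤ Ys.length) (u v : Fin 3) :
    ((matP Ys).get u).get v = (Ys.getD (tri u v) 0, 0) := by
  rcases Ys with _ | ⟨x00, _ | ⟨x01, _ | ⟨x02, _ | ⟨x11, _ | ⟨x12, _ | ⟨x22, ys⟩⟩⟩⟩⟩⟩ <;>
    simp at h
  fin_cases u <;> fin_cases v <;> rfl

lemma congP_get (cf : Cfg) (s : St) (d : Cong) (i j : Fin 3) :
    ((congP cf s d).get i).get j =
      biasP cf (d.T.cols.get (min i j))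
        ((d.T.cols.map fun t => (matP s.Ys).map (dotP t)).get (max i j))
        ((colP d).get (min i j)) ((colP d).get (max i j)) := by
  fin_cases i <;> fin_cases j <;> rfl

lemma rowsOk_get {cone : V3 Bool} {cf : Cfg} {s : St} {d : Cong}
    (h : rowsOk cone cf s d = true) (i : Fin 3) :
    rowOk cone cf s d ((congP cf s d).get i) ((posRows cone d).get i) ((colAbs d).get i) i.val
      (((congP cf s d).get i).get i) (d.w.get i) (d.T.cols.get i) = true := by
  simp only [rowsOk, Bool.and_eq_true] at h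
  obtain ⟨⟨h0, h1⟩, h2⟩ := h
  fin_cases i
  exacts [h0, h1, h2]

/-- An entry of the congruence. -/
def Cong.t (d : Cong) (u i : Fin 3) : ℤ := (d.T.get u).get i

lemma cols_t (d : Cong) (i u : Fin 3) : (d.T.cols.get i).get u = d.t u i := V3.get_cols _ _ _

lemma colP_get (d : Cong) (i : Fin 3) :
    (((colP d).get i).1 : ℤ) - ((colP d).get i).2 = ∑ u, d.t u i ∧
      ((colP d).get i).1 + ((colP d).get i).2 = ∑ u, (d.t u i).natAbs := by
  simp only [colP, V3.get_map, V3.total_eq, cols_t, Nat.cast_sum, ← sum_sub_distrib,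
    ← sum_add_distrib]
  exact ⟨sum_congr rfl fun u _ => (signP_eq _).1, sum_congr rfl fun u _ => (signP_eq _).2⟩

lemma colAbs_get (d : Cong) (i : Fin 3) : (colAbs d).get i = ∑ u, (d.t u i).natAbs := by
  rw [colAbs, V3.get_map]
  exact (colP_get d i).2

lemma wTotal_eq (d : Cong) : wTotal d = ∑ j, (colAbs d).get j * d.w.get j := by
  rw [wTotal, V3.total_eq]
  exact sum_congr rfl fun j _ => by fin_cases j <;> rfl

/-- The congruent lanes. -/
def vB (d : Cong) (g : Fin 3 → Fin 3 → ℕ → ℤ) (i j : Fin 3) (o : ℕ) : ℤ :=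
  ∑ u, ∑ v, d.t u i * g u v o * d.t v j

lemma vB_comm (d : Cong) {g : Fin 3 → Fin 3 → ℕ → ℤ} (hg : ∀ u v o, g u v o = g v u o)
    (i j : Fin 3) (o : ℕ) : vB d g i j o = vB d g j i o := by
  rw [vB, sum_comm]
  exact sum_congr rfl fun u _ => sum_congr rfl fun v _ => by rw [hg u v]; ring

lemma vB_abs_le (d : Cong) {g : Fin 3 → Fin 3 → ℕ → ℤ} {C : ℕ} {o : ℕ}
    (hg : ∀ u v, |g u v o| ≤ (C : ℤ)) (i j : Fin 3) :
    |vB d g i j o| ≤ (C : ℤ) * (colAbs d).get i * (colAbs d).get j := by
  simp only [colAbs_get, Nat.cast_sum, Int.natCast_natAbs, Finset.mul_sum, Finset.sum_mul, vB]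
  refine (abs_sum_le_sum_abs _ _).trans ?_
  refine (sum_le_sum fun u _ => abs_sum_le_sum_abs _ _).trans (sum_comm.trans_le ?_)
  refine sum_le_sum fun v _ => sum_le_sum fun u _ => ?_
  rw [abs_mul, abs_mul]
  have := mul_le_mul_of_nonneg_left (hg u v) (abs_nonneg (d.t u i))
  nlinarith [abs_nonneg (d.t v j), mul_le_mul_of_nonneg_right this (abs_nonneg (d.t v j))]

/-- The biased congruent entry. -/
lemma congP_spec {cf : Cfg} {s : St} {d : Cong} (hk : 0 < cf.k) (hlen : 6 ≤ s.Ys.length)
    {f : Fin 3 → Fin 3 → ℕ → ℕ} (hf : ∀ u v, s.Ys.getD (tri u v) 0 = pk cf.k (size cf.ds) (f u v))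
    (hfs : ∀ u v o, f u v o = f v u o) (i j : Fin 3)
    (hv : ∀ o < size cf.ds,
      0 ≤ vB d (fun u v o => (f u v o : ℤ) - cf.C) i j o + ((2 ^ (cf.k - 1) : ℕ) : ℤ)) :
    ((congP cf s d).get i).get j = pk cf.k (size cf.ds) fun o =>
      (vB d (fun u v o => (f u v o : ℤ) - cf.C) i j o + ((2 ^ (cf.k - 1) : ℕ) : ℤ)).toNat := by
  have hmin : ∀ o, vB d (fun u v o => (f u v o : ℤ) - cf.C) i j o =
      vB d (fun u v o => (f u v o : ℤ) - cf.C) (min i j) (max i j) o := fun o => by
    rcases le_total i j with h | h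
    · rw [min_eq_left h, max_eq_right h]
    · rw [min_eq_right h, max_eq_left h, vB_comm d fun u v o => by rw [hfs u v o]]
  rw [congP_get]
  simp only [hmin] at hv ⊢
  generalize min i j = a at hv ⊢
  generalize max i j = b at hv ⊢
  simp only [biasP, Nat.add_eq, Nat.mul_eq, Nat.sub_eq]
  refine sub_eq_pk ?_ hv
  set w : ℕ → ℤ := fun o => ∑ u, d.t u a * ∑ v, d.t v b * (f u v o : ℤ)
  set P := dotP (d.T.cols.get a) ((d.T.cols.map fun t => (matP s.Ys).map (dotP t)).get b) with hP
  have hb : (P.1 : ℤ) - P.2 = pkZ cf.k (size cf.ds) w := by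
    simp only [hP, dotP_eq, cols_t, V3.get_map, matP_get hlen, hf, cast_pk, Nat.cast_zero,
      sub_zero, pkZ, w, Finset.mul_sum, Finset.sum_mul]
    rw [sum_comm (s := Finset.range _)]
    refine sum_congr rfl fun u _ => ?_
    rw [sum_comm (s := Finset.range _)]
    exact sum_congr rfl fun v _ => sum_congr rfl fun o _ => by ring
  set z : ℤ := (cf.C : ℤ) * ((∑ u, d.t u a) * ∑ u, d.t u b) with hz
  simp only [Nat.cast_add, onesP_eq hk, cast_pk]
  change ((P.1 : ℤ) + _) - ((P.2 : ℤ) + _) = _
  rw [add_sub_add_comm, hb, pkZ_sub, pkZ_add]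
  refine pkZ_congr fun o _ => ?_
  have e : vB d (fun u v o => (f u v o : ℤ) - cf.C) a b o = w o - z := by
    simp only [vB, hz, w, Finset.mul_sum, Finset.sum_mul, mul_sub, sub_mul, sum_sub_distrib]
    congr 1
    · exact sum_congr rfl fun u _ => sum_congr rfl fun v _ => by ring
    · rw [sum_comm]
      exact sum_congr rfl fun v _ => sum_congr rfl fun u _ => by ring
  rw [e]
  rw [hz, ← (colP_get d a).1, ← (colP_get d b).1]
  push_cast
  ring

lemma deadFor_rows {cf : Cfg} {d : Cong} {i : Fin 3} {F : Face}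
    (h : deadFor cf (pad (d.T.cols.get i)) F = true) (u : Fin 3) :
    F.rows.get (Fin.castLE (by omega) u) = true ∨ d.t u i = 0 := by
  simp only [deadFor, Bool.and_eq_true] at h
  rw [← cols_t]
  fin_cases u
  · exact (Bool.or_eq_true _ _ ▸ V6.of_all h.2 0).imp id (isZ_iff _).1
  · exact (Bool.or_eq_true _ _ ▸ V6.of_all h.2 1).imp id (isZ_iff _).1
  · exact (Bool.or_eq_true _ _ ▸ V6.of_all h.2 2).imp id (isZ_iff _).1

/-- One row of the test on signed lanes. -/
noncomputable def vR (cone : V3 Bool) (d : Cong) (E : ℕ) (g : Fin 3 → Fin 3 → ℕ → ℤ) (i : Fin 3) (o : ℕ) : ℤ :=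
  (d.w.get i : ℤ) * vB d g i i o -
    ((∑ j, if i = j then 0 else
      (d.w.get j : ℤ) * cost ((posRows cone d).get i && (posRows cone d).get j) (vB d g i j o)) +
      (E : ℤ) * (colAbs d).get i * wTotal d)

lemma vR_abs_le (cone : V3 Bool) (d : Cong) (E : ℕ) {g : Fin 3 → Fin 3 → ℕ → ℤ} {C o : ℕ}
    (hg : ∀ u v, |g u v o| ≤ (C : ℤ)) (i : Fin 3) :
    |vR cone d E g i o| ≤ ((C : ℤ) + E) * (colAbs d).get i * wTotal d := by
  have h1 : |(d.w.get i : ℤ) * vB d g i i o| ≤
      ∑ j, if i = j then (C : ℤ) * (colAbs d).get i * ((colAbs d).get j * d.w.get j) else 0 := by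
    rw [Finset.sum_ite_eq, if_pos (Finset.mem_univ _), abs_mul, Nat.abs_cast]
    nlinarith [vB_abs_le d hg i i, Int.natCast_nonneg (d.w.get i)]
  have h2 : ∀ j, (if i = j then 0 else
      (d.w.get j : ℤ) * cost ((posRows cone d).get i && (posRows cone d).get j) (vB d g i j o)) ≤
      if i = j then 0 else (C : ℤ) * (colAbs d).get i * ((colAbs d).get j * d.w.get j) := fun j => by
    split
    · exact le_rfl
    · nlinarith [vB_abs_le d hg i j, Int.natCast_nonneg (d.w.get j),
        (cost_le ((posRows cone d).get i && (posRows cone d).get j) (vB d g i j o)).2]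
  have h3 : 0 ≤ ∑ j, if i = j then 0 else
      (d.w.get j : ℤ) * cost ((posRows cone d).get i && (posRows cone d).get j) (vB d g i j o) :=
    sum_nonneg fun j _ => by
      split
      · exact le_rfl
      · exact mul_nonneg (by positivity) (cost_le _ _).1
  have h4 : (∑ j, if i = j then (C : ℤ) * (colAbs d).get i * ((colAbs d).get j * d.w.get j) else 0) +
      (∑ j, if i = j then 0 else (C : ℤ) * (colAbs d).get i * ((colAbs d).get j * d.w.get j)) =
      (C : ℤ) * (colAbs d).get i * wTotal d := by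
    rw [← sum_add_distrib, wTotal_eq, Nat.cast_sum, Finset.mul_sum]
    exact sum_congr rfl fun j _ => by split <;> push_cast <;> ring
  have h5 := sum_le_sum (s := univ) fun j _ => h2 j
  have h6 : (0 : ℤ) ≤ (E : ℤ) * (colAbs d).get i * wTotal d := by positivity
  have h7 := abs_le.1 h1
  simp only [vR, abs_le, add_mul]
  have h8 : 0 ≤ ∑ j, if i = j then 0 else
      (C : ℤ) * (colAbs d).get i * ((colAbs d).get j * d.w.get j) :=
    sum_nonneg fun j _ => by split <;> positivity
  constructor <;> linarith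

/-- The biased row. -/
lemma rowP_spec {cone : V3 Bool} {cf : Cfg} {s : St} {d : Cong} (hk : 0 < cf.k) {g : Fin 3 → Fin 3 → ℕ → ℤ}
    (i : Fin 3)
    (hB : ∀ j, ((congP cf s d).get i).get j = pk cf.k (size cf.ds) fun o =>
      (vB d g i j o + ((2 ^ (cf.k - 1) : ℕ) : ℤ)).toNat)
    (hv : ∀ j, ∀ o < size cf.ds, |vB d g i j o| < ((2 ^ (cf.k - 1) : ℕ) : ℤ))
    (hR : ∀ o < size cf.ds, |vR cone d s.E g i o| < ((2 ^ (cf.k - 1) : ℕ) : ℤ)) :
    rowP cone cf s d ((congP cf s d).get i) ((posRows cone d).get i) ((colAbs d).get i) i.val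
        (((congP cf s d).get i).get i) (d.w.get i) =
      pk cf.k (size cf.ds) fun o => (vR cone d s.E g i o + ((2 ^ (cf.k - 1) : ℕ) : ℤ)).toNat := by
  have hB' : ∀ j, (((congP cf s d).get i).get j : ℤ) = pkZ cf.k (size cf.ds) fun o =>
      vB d g i j o + ((2 ^ (cf.k - 1) : ℕ) : ℤ) := fun j => by
    rw [hB, cast_pk]
    exact pkZ_congr fun o ho => Int.toNat_of_nonneg (by have := abs_lt.1 (hv j o ho); omega)
  have hc : ∀ (j : Fin 3) (q : Bool), (costP cf q (((congP cf s d).get i).get j) : ℤ) =
      pkZ cf.k (size cf.ds) fun o => cost q (vB d g i j o) := fun j q => by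
    rw [hB, costP_spec hk (hv j), cast_pk]
    exact pkZ_congr fun o ho => Int.toNat_of_nonneg (cost_le _ _).1
  have hne : ∀ j : Fin 3, Nat.beq i.val j.val = decide (i = j) := fun j => by
    rw [Bool.eq_iff_iff, Nat.beq_eq, decide_eq_true_iff, Fin.val_inj]
  have hsum : (V3.total ⟨
      bif Nat.beq i.val 0 then 0 else Nat.mul d.w.a0
        (costP cf ((posRows cone d).get i && (posRows cone d).a0) ((congP cf s d).get i).a0),
      bif Nat.beq i.val 1 then 0 else Nat.mul d.w.a1
        (costP cf ((posRows cone d).get i && (posRows cone d).a1) ((congP cf s d).get i).a1),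
      bif Nat.beq i.val 2 then 0 else Nat.mul d.w.a2
        (costP cf ((posRows cone d).get i && (posRows cone d).a2) ((congP cf s d).get i).a2)⟩ : ℤ) =
      pkZ cf.k (size cf.ds) fun o => ∑ j, if i = j then 0 else
        (d.w.get j : ℤ) *
          cost ((posRows cone d).get i && (posRows cone d).get j) (vB d g i j o) := by
    have one : ∀ j : Fin 3, ((bif Nat.beq i.val j.val then 0 else Nat.mul (d.w.get j)
        (costP cf ((posRows cone d).get i && (posRows cone d).get j)
          (((congP cf s d).get i).get j)) : ℕ) : ℤ) =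
        pkZ cf.k (size cf.ds) fun o => if i = j then 0 else
          (d.w.get j : ℤ) * cost ((posRows cone d).get i && (posRows cone d).get j) (vB d g i j o) :=
      fun j => by
        rw [hne]
        by_cases hij : i = j
        · simp [hij, pkZ]
        · simp [hij, hc, mul_pkZ]
    simp only [V3.total, Nat.add_eq, Nat.cast_add, Fin.sum_univ_three, ← pkZ_add, ← one]
    rfl
  simp only [rowP, Nat.sub_eq]
  refine sub_eq_pk ?_ fun o ho => ?_
  · simp only [Nat.add_eq, Nat.cast_add, hsum]
    simp only [Nat.mul_eq, onesP_eq hk, topP_eq hk, Nat.cast_mul, hB', cast_pk, mul_pkZ, pkZ_add,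
      pkZ_sub]
    exact pkZ_congr fun o _ => by simp only [vR]; push_cast; ring
  · have := abs_lt.1 (hR o ho)
    omega

/-- A passed row is nonnegative on its live lanes. -/
lemma rowOk_spec {cf : Cfg} {s : St} {d : Cong} (hk : 0 < cf.k) {cone : V3 Bool} {t : V3 ℤ} {r : ℕ → ℤ}
    {B : V3 ℕ} {p : Bool} {a i diag w : ℕ}
    (h : rowOk cone cf s d B p a i diag w t = true)
    (hrow : rowP cone cf s d B p a i diag w =
      pk cf.k (size cf.ds) fun o => (r o + ((2 ^ (cf.k - 1) : ℕ) : ℤ)).toNat)
    (hr : ∀ o < size cf.ds, |r o| < ((2 ^ (cf.k - 1) : ℕ) : ℤ))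
    {o : ℕ} (ho : o < size cf.ds) (hl : live cf (pad t) s.faces o = true) : 0 ≤ r o := by
  have e : 2 ^ cf.k = 2 ^ (cf.k - 1) * 2 := by rw [← pow_succ]; congr 1; omega
  have hH : ∀ o, (if live cf (pad t) s.faces o then 2 ^ (cf.k - 1) else 0) < 2 ^ cf.k := fun o => by
    have := Nat.two_pow_pos (cf.k - 1)
    split <;> omega
  have hb : ∀ o < size cf.ds,
      (r o + ((2 ^ (cf.k - 1) : ℕ) : ℤ)).toNat < 2 ^ cf.k := fun o ho => by
    have := abs_lt.1 (hr o ho); omega
  simp only [rowOk, Nat.beq_eq] at h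
  rw [hrow, selP_spec hk] at h
  rw [show ∀ a b : ℕ, Nat.land a b = a &&& b from fun _ _ => rfl] at h
  rw [pk_land cf.k hb fun o _ => hH o] at h
  have := pk_inj (fun o ho => Nat.and_le_left.trans_lt (hb o ho)) (fun o _ => hH o) h o ho
  simp only [hl, if_true] at this
  rw [land_top hk (hb o ho)] at this
  by_contra hneg
  have hp := Nat.two_pow_pos (cf.k - 1)
  split at this <;> omega

noncomputable section

/-- What a state stands for: tensors within its error. -/
structure Repr (cf : Cfg) (s : St) (b : ℕ → List ℕ → ℝ) : Prop where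
  rep : ∀ i < s.Ys.length, Rep cf.k cf.C s.E cf.ds (s.Ys.getD i 0) (b i)

/-- The rows of the matrix vanish on the faces. -/
def FacesZero (cf : Cfg) (s : St) (b : ℕ → List ℕ → ℝ) : Prop :=
  ∀ F ∈ s.faces, ∀ i : Fin 3, F.rows.get (Fin.castLE (by omega) i) = true →
    ∀ j r, InRange cf.ds r → OnFace cf.ds F.axis F.top r → b (tri i j) r = 0

/-- The matrix is nonnegative on the cone all over the box where the constraints hold. -/
def Good (cone : V3 Bool) (cf : Cfg) (s : St) : Prop :=
  ∀ b, Repr cf s b → FacesZero cf s b → ∀ xs : List ℝ, xs.length = cf.ds.length → InUnit xs →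
    (∀ i, 6 ≤ i → i < s.Ys.length → 0 ≤ evalB cf.ds xs (b i)) →
    ∀ x : Fin 3 → ℝ, (∀ i, cone.get i = true → 0 ≤ x i) →
      0 ≤ quadForm (fun i j => evalB cf.ds xs (b (tri i j))) x

lemma congrMat_symm {M : Fin 3 → Fin 3 → ℝ} (T : Fin 3 → Fin 3 → ℝ) (h : ∀ i j, M i j = M j i)
    (i j : Fin 3) : congrMat T M i j = congrMat T M j i := by
  rw [congrMat, sum_comm]
  exact sum_congr rfl fun u _ => sum_congr rfl fun v _ => by rw [h v u]; ring

/-- A passed leaf. -/
theorem psd_sound {cone : V3 Bool} {cf : Cfg} {s : St} {d : Cong}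
    (h : leafOk cone cf s (.psd d) = true) : Good cone cf s := by
  simp only [leafOk, Bool.and_eq_true, Nat.blt_eq, Nat.ble_eq] at h
  obtain ⟨⟨⟨⟨⟨⟨hk, hc⟩, hw⟩, hlen⟩, hinv⟩, hbd⟩, hrows⟩ := h
  intro b hb hface xs _ hxs _ x hx
  have hw' : ∀ i, 0 < d.w.get i := fun i => by
    simpa [V3.get_map] using V3.of_all hw i
  have hbd' : ∀ i, (cf.C + s.E) * (colAbs d).get i * wTotal d < 2 ^ (cf.k - 1) := fun i => by
    simp only [boundOk] at hbd
    simpa [V3.get_map] using V3.of_all hbd i
  choose f0 hf0 hfC0 hfE0 using fun u v => hb.rep (tri u v) ((tri_lt u v).trans_le hlen)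
  set f : Fin 3 → Fin 3 → ℕ → ℕ := fun u v => f0 (min u v) (max u v) with hfdef
  have hf : ∀ u v, s.Ys.getD (tri u v) 0 = pk cf.k (size cf.ds) (f u v) := fun u v => by
    rw [← tri_min_max, hf0]
  have hfs : ∀ u v o, f u v o = f v u o := fun u v o => by simp [f, min_comm, max_comm]
  have hbm : ∀ u v r, b (tri (min u v) (max u v)) r = b (tri u v) r := fun u v r => by
    rw [tri_min_max]
  have hbs : ∀ u v, b (tri u v) = b (tri v u) := fun u v => by
    rw [← tri_min_max u v, min_comm, max_comm, tri_min_max]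
  set g : Fin 3 → Fin 3 → ℕ → ℤ := fun u v o => (f u v o : ℤ) - cf.C with hg
  have hgC : ∀ o < size cf.ds, ∀ u v, |g u v o| ≤ (cf.C : ℤ) := fun o ho u v => by
    have := hfC0 (min u v) (max u v) o ho
    simp only [g, f, abs_le]
    omega
  have hW : ∀ j, (colAbs d).get j ≤ wTotal d := fun j => by
    rw [wTotal_eq]
    exact le_trans (Nat.le_mul_of_pos_right _ (hw' j))
      (single_le_sum (f := fun j => (colAbs d).get j * d.w.get j) (fun _ _ => Nat.zero_le _)
        (mem_univ j))
  have hbdZ : ∀ i, ((cf.C : ℤ) + s.E) * (colAbs d).get i * wTotal d <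
      ((2 ^ (cf.k - 1) : ℕ) : ℤ) := fun i => by exact_mod_cast hbd' i
  have hv : ∀ i j, ∀ o < size cf.ds, |vB d g i j o| < ((2 ^ (cf.k - 1) : ℕ) : ℤ) := by
    intro i j o ho
    refine ((vB_abs_le d (hgC o ho) i j).trans ?_).trans_lt (hbdZ i)
    have h1 : ((colAbs d).get j : ℤ) ≤ wTotal d := by exact_mod_cast hW j
    have h2 : (0 : ℤ) ≤ cf.C * (colAbs d).get i := by positivity
    have h3 : (0 : ℤ) ≤ (s.E : ℤ) * (colAbs d).get i * wTotal d := by positivity
    nlinarith [mul_le_mul_of_nonneg_left h1 h2]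
  have hR : ∀ i, ∀ o < size cf.ds, |vR cone d s.E g i o| < ((2 ^ (cf.k - 1) : ℕ) : ℤ) :=
    fun i o ho => (vR_abs_le cone d s.E (hgC o ho) i).trans_lt (hbdZ i)
  have hB : ∀ i j, ((congP cf s d).get i).get j = pk cf.k (size cf.ds) fun o =>
      (vB d g i j o + ((2 ^ (cf.k - 1) : ℕ) : ℤ)).toNat := fun i j =>
    congP_spec hk hlen hf hfs i j fun o ho => by
      have := abs_lt.1 (hv i j o ho); linarith
  have hrow : ∀ i o, o < size cf.ds → live cf (pad (d.T.cols.get i)) s.faces o = true →
      0 ≤ vR cone d s.E g i o := fun i o ho hl =>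
    rowOk_spec hk (rowsOk_get hrows i) (rowP_spec hk i (hB i) (hv i) (hR i)) (hR i) ho hl
  -- the real congruent tensors
  set T : Fin 3 → Fin 3 → ℝ := fun u i => (d.t u i : ℝ) with hT
  set bR : Fin 3 → Fin 3 → List ℕ → ℝ := fun i j r => congrMat T (fun u v => b (tri u v) r) i j with hbR
  set both : Fin 3 → Fin 3 → Bool := fun i j => (posRows cone d).get i && (posRows cone d).get j with hboth
  set φ : Bool → ℝ → ℝ := fun q v => if q then max (-v) 0 else |v| with hφ
  have hclose : ∀ i j r, InRange cf.ds r → |bR i j r - (vB d g i j (flat cf.ds r) : ℝ)| ≤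
      (s.E : ℝ) * (colAbs d).get i * (colAbs d).get j := by
    intro i j r hr
    simp only [hbR, congrMat, vB, hT, Int.cast_sum, Int.cast_mul, colAbs_get, Nat.cast_sum,
      ← sum_sub_distrib, Finset.mul_sum, Finset.sum_mul]
    refine (abs_sum_le_sum_abs _ _).trans ((sum_le_sum fun u _ => abs_sum_le_sum_abs _ _).trans
      (le_of_le_of_eq (sum_le_sum fun u _ => sum_le_sum fun v _ => ?_) sum_comm))
    have h1 := hfE0 (min u v) (max u v) r hr
    rw [hbm] at h1
    have e : (g u v (flat cf.ds r) : ℝ) = (f0 (min u v) (max u v) (flat cf.ds r) : ℝ) - cf.C := by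
      simp [g, f]
    rw [← e] at h1
    rw [← sub_mul, ← mul_sub, abs_mul, abs_mul, Nat.cast_natAbs, Nat.cast_natAbs, Int.cast_abs,
      Int.cast_abs]
    nlinarith [abs_nonneg (d.t u i : ℝ), abs_nonneg (d.t v j : ℝ),
      mul_le_mul_of_nonneg_left h1 (mul_nonneg (abs_nonneg (d.t u i : ℝ)) (abs_nonneg (d.t v j : ℝ)))]
  have hpoint : ∀ i r, InRange cf.ds r →
      (∑ j ∈ univ.erase i, (d.w.get j : ℝ) * φ (both i j) (bR i j r)) ≤ d.w.get i * bR i i r := by
    intro i r hr
    rcases Bool.eq_false_or_eq_true (live cf (pad (d.T.cols.get i)) s.faces (flat cf.ds r)) with hl | hl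
    · have h0 : (0 : ℝ) ≤ (vR cone d s.E g i (flat cf.ds r) : ℤ) := by
        exact_mod_cast hrow i _ (flat_lt hr) hl
      have hsum : (∑ j ∈ univ.erase i, (d.w.get j : ℝ) * φ (both i j) (bR i j r)) ≤
          ∑ j ∈ univ.erase i, ((d.w.get j : ℝ) * (cost (both i j) (vB d g i j (flat cf.ds r)) : ℤ) +
            (d.w.get j : ℝ) * ((s.E : ℝ) * (colAbs d).get i * (colAbs d).get j)) := by
        refine sum_le_sum fun j _ => ?_
        rw [← mul_add]
        refine mul_le_mul_of_nonneg_left ?_ (Nat.cast_nonneg _)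
        have := abs_le.1 (hclose i j r hr)
        simp only [φ, cost]
        cases both i j
        · simp only [Bool.false_eq_true, if_false, Int.cast_abs, abs_le]
          constructor <;>
            linarith [le_abs_self (vB d g i j (flat cf.ds r) : ℝ),
              neg_abs_le (vB d g i j (flat cf.ds r) : ℝ)]
        · simp only [if_true, Int.cast_max, Int.cast_neg, Int.cast_zero]
          refine max_le ?_ ?_
          · linarith [le_max_left (-(vB d g i j (flat cf.ds r) : ℝ)) 0]
          · linarith [le_max_right (-(vB d g i j (flat cf.ds r) : ℝ)) 0, abs_le.2 this,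
              abs_nonneg (bR i j r - (vB d g i j (flat cf.ds r) : ℝ))]
      refine hsum.trans ?_
      have h1 := abs_le.1 (hclose i i r hr)
      have h2 : (∑ j, if i = j then (0 : ℝ) else
          (d.w.get j : ℝ) * (cost (both i j) (vB d g i j (flat cf.ds r)) : ℤ)) =
          ∑ j ∈ univ.erase i, (d.w.get j : ℝ) * (cost (both i j) (vB d g i j (flat cf.ds r)) : ℤ) := by
        rw [← Finset.add_sum_erase univ _ (mem_univ i), if_pos rfl, zero_add]
        exact sum_congr rfl fun j hj => if_neg (ne_of_mem_erase hj).symm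
      have h3 : (s.E : ℝ) * (colAbs d).get i * wTotal d =
          d.w.get i * ((s.E : ℝ) * (colAbs d).get i * (colAbs d).get i) +
          ∑ j ∈ univ.erase i,
            (d.w.get j : ℝ) * ((s.E : ℝ) * (colAbs d).get i * (colAbs d).get j) := by
        rw [Finset.add_sum_erase univ (fun j => (d.w.get j : ℝ) *
          ((s.E : ℝ) * (colAbs d).get i * (colAbs d).get j)) (mem_univ i), wTotal_eq, Nat.cast_sum,
          Finset.mul_sum]
        exact sum_congr rfl fun j _ => by push_cast; ring
      simp only [vR, Int.cast_sub, Int.cast_add, Int.cast_mul, Int.cast_natCast, Int.cast_sum,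
        apply_ite (fun z : ℤ => (z : ℝ)), Int.cast_zero] at h0
      simp only [hboth] at h2
      rw [h2, h3] at h0
      rw [sum_add_distrib]
      have h4 := mul_le_mul_of_nonneg_left h1.1 (Nat.cast_nonneg (α := ℝ) (d.w.get i))
      simp only [hboth]
      nlinarith
    · obtain ⟨F, hF, hdead, hon⟩ := of_live_false hr hl
      have hz : ∀ j, bR i j r = 0 := fun j => by
        simp only [hbR, congrMat]
        refine sum_eq_zero fun u _ => sum_eq_zero fun v _ => ?_
        rcases deadFor_rows hdead u with hu | hu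
        · rw [hface F hF u hu v r hr hon]; ring
        · simp [hT, hu]
      simp only [hz, mul_zero]
      exact le_of_eq (sum_eq_zero fun j _ => by simp [φ])
  -- the matrix at the point
  set M : Fin 3 → Fin 3 → ℝ := fun i j => evalB cf.ds xs (b (tri i j)) with hM
  have hMs : ∀ i j, M i j = M j i := fun i j => by
    simp only [hM, hbs i j]
  have hev : ∀ i j, congrMat T M i j = evalB cf.ds xs (bR i j) := fun i j => by
    simp only [hbR, congrMat, evalB_sum]
    refine sum_congr rfl fun u _ => sum_congr rfl fun v _ => ?_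
    rw [mul_right_comm, ← evalB_smul]
    exact evalB_congr _ _ fun r _ => by ring
  set y : Fin 3 → ℝ := fun i => (∑ v, (((d.Tinv.get i).get v : ℤ) : ℝ) * x v) / d.c with hy
  have hcpos : (0 : ℝ) < d.c := by exact_mod_cast hc
  have hTy : (fun i => ∑ u, T i u * y u) = x := by
    have e : ∀ i v, ∑ u, d.t i u * (d.Tinv.get u).get v = if i = v then (d.c : ℤ) else 0 := by
      intro i v
      simp only [invOk] at hinv
      have h1 := V3.of_all hinv i
      have key : ∀ (r : V3 ℤ) (w : Fin 3) (m : ℕ),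
          Nat.beq (dotP r ((d.Tinv.cols.map fun v => v.map signP).get w)).1
            (Nat.add (dotP r ((d.Tinv.cols.map fun v => v.map signP).get w)).2 m) = true →
          ∑ u, r.get u * (d.Tinv.get u).get w = (m : ℤ) := fun r w m h => by
        rw [Nat.beq_eq, Nat.add_eq] at h
        have := dotP_eq r ((d.Tinv.cols.map fun v => v.map signP).get w)
        simp only [V3.get_map, (signP_eq _).1, V3.get_cols] at this h
        rw [← this, h]
        push_cast
        ring
      fin_cases i <;>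
        (have h2 := V3.of_all h1 v
         fin_cases v <;> exact key _ _ _ h2)
    funext i
    simp only [hy, mul_div_assoc', Finset.mul_sum, ← Finset.sum_div]
    rw [sum_comm, div_eq_iff hcpos.ne']
    simp only [← mul_assoc, ← Finset.sum_mul, hT, ← Int.cast_mul, ← Int.cast_sum, e]
    simp [apply_ite (fun z : ℤ => (z : ℝ)), mul_comm]
  have hpos : ∀ i, (posRows cone d).get i = true → 0 ≤ y i := fun i hi => by
    simp only [posRows, V3.get_map, Bool.and_eq_true] at hi
    obtain ⟨⟨h0, h1⟩, h2⟩ := hi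
    have key : ∀ (c : Bool) (t : ℤ) (z : ℝ), (c = true → 0 ≤ z) →
        (bif c then nonnegZ t else isZ t) = true → 0 ≤ (t : ℝ) * z := fun c t z hz h => by
      cases c
      · rw [cond_false, isZ_iff] at h
        simp [h]
      · rw [cond_true, nonnegZ_iff] at h
        exact mul_nonneg (by exact_mod_cast h) (hz rfl)
    simp only [hy, Fin.sum_univ_three]
    exact div_nonneg (add_nonneg (add_nonneg (key _ _ _ (hx 0) h0) (key _ _ _ (hx 1) h1))
      (key _ _ _ (hx 2) h2)) hcpos.le
  set Cm : Fin 3 → Fin 3 → ℝ := fun i j =>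
    if i ≠ j ∧ both i j = true then max (congrMat T M i j) 0 else 0 with hCm
  have hC : 0 ≤ quadForm Cm y := by
    refine sum_nonneg fun i _ => sum_nonneg fun j _ => ?_
    simp only [hCm]
    split
    · rename_i hij
      simp only [hboth, Bool.and_eq_true] at hij
      exact mul_nonneg (mul_nonneg (le_max_right _ _) (hpos i hij.2.1)) (hpos j hij.2.2)
    · simp
  have hCs : ∀ i j, Cm i j = Cm j i := fun i j => by
    simp only [hCm, hboth]
    rw [congrMat_symm T hMs j i, Bool.and_comm ((posRows cone d).get j)]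
    by_cases hij : i = j
    · simp [hij]
    · simp [hij, Ne.symm hij]
  have hmain := quadForm_nonneg_of_dominant (B := congrMat T M) (C := Cm)
    (w := fun i => (d.w.get i : ℝ)) (fun i => by exact_mod_cast hw' i)
    (fun i j => by rw [congrMat_symm T hMs i j, hCs i j]) (fun i => ?_) hC
  · rw [quadForm_congrMat, hTy] at hmain
    exact hmain
  have hdiag : Cm i i = 0 := by simp [hCm]
  rw [hdiag, sub_zero]
  calc ∑ j ∈ univ.erase i, |congrMat T M i j - Cm i j| * (d.w.get j : ℝ)
      ≤ ∑ j ∈ univ.erase i, evalB cf.ds xs fun r => (d.w.get j : ℝ) * φ (both i j) (bR i j r) := by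
        refine sum_le_sum fun j hj => ?_
        rw [evalB_smul, mul_comm]
        refine mul_le_mul_of_nonneg_left ?_ (Nat.cast_nonneg _)
        have hij : i ≠ j := (ne_of_mem_erase hj).symm
        simp only [hCm, hev, φ]
        rcases Bool.eq_false_or_eq_true (both i j) with hq | hq
        · simp only [hq, hij, ne_eq, not_false_eq_true, and_self, if_true]
          have h1 := evalB_mono cf.ds hxs (b := fun r => -1 * bR i j r)
            (c := fun r => max (-bR i j r) 0) fun r _ => by
              linarith [le_max_left (-bR i j r) 0]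
          have h2 := evalB_nonneg cf.ds hxs (b := fun r => max (-bR i j r) 0)
            fun r _ => le_max_right _ _
          rw [evalB_smul] at h1
          rw [abs_le]
          constructor
          · rcases le_total (evalB cf.ds xs (bR i j)) 0 with hle | hle
            · rw [max_eq_right hle]; linarith
            · rw [max_eq_left hle]; linarith
          · rcases le_total (evalB cf.ds xs (bR i j)) 0 with hle | hle
            · rw [max_eq_right hle]; linarith
            · rw [max_eq_left hle]; linarith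
        · simp only [hq, Bool.false_eq_true, and_false, if_false, sub_zero]
          exact evalB_abs_le cf.ds hxs _
    _ = evalB cf.ds xs fun r => ∑ j ∈ univ.erase i, (d.w.get j : ℝ) * φ (both i j) (bR i j r) :=
        (evalB_sum _ _ _ _).symm
    _ ≤ evalB cf.ds xs fun r => (d.w.get i : ℝ) * bR i i r :=
        evalB_mono cf.ds hxs fun r hr => hpoint i r hr
    _ = _ := by rw [evalB_smul, hev, mul_comm]

end

end Vale.Agent.P211.Cert.Check
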