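import Vale.Agent.P211.Cert.Check.Tree
import Vale.Agent.P098.Cert6.RootTensor
import Vale.Agent.P098.Check6.Literal

/-!
P211, checker: states at the root from polynomial expressions, and the inequalities over the unit
cube which good roots give.  Expressions live in four pairs of variables; unused axes have degree
zero.
-/

namespace Vale.Agent.P211.Cert.Check

open Vale.Agent.P098.Check6
open Vale.Agent.P098.Cert6.Kron (Poly Deg RootPar parOK rootOK rootFace rootY degs evalR root_rep)

noncomputable section

/-- The lanes at the root. -/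
def rootCfg (R : RootPar) (d : Deg) : Cfg := ⟨R.k, R.C, degs d⟩

/-- The state at the root: the packed expressions and the faces. -/
def rootSt (R : RootPar) (d : Deg) (es : List Poly) (fs : List Face) : St :=
  ⟨es.map (rootY R d), 1, fs⟩

/-- All expressions pass the root test, and the rows of the matrix vanish on the faces. -/
def rootsOK (R : RootPar) (d : Deg) (es : List Poly) (fs : List Face) : Bool :=
  es.all (rootOK R d) && fs.all fun F =>
    Nat.blt F.axis 4 && (List.finRange 3).all fun i => (List.finRange 3).all fun j =>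
      !F.rows.get (Fin.castLE (by omega) i) ||
        rootFace R d (es.getD (tri i j) (.const 0)) F.axis F.top

/-- The root test of a scalar and its faces. -/
def rootsSignOK (R : RootPar) (d : Deg) (es : List Poly) (fs : List Face) : Bool :=
  es.all (rootOK R d) && fs.all fun F =>
    Nat.blt F.axis 4 && (!F.rows.a0 || rootFace R d (es.getD 0 (.const 0)) F.axis F.top)

lemma kappa_pos {R : RootPar} {d : Deg} (hpar : parOK R d = true) : 0 < R.kappa := by
  have hm : 1 ≤ R.mult := by
    simp only [parOK, Bool.and_eq_true, Nat.ble_eq] at hpar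
    tauto
  have : (0 : ℝ) < R.mult := Nat.cast_pos.2 hm
  unfold RootPar.kappa
  positivity

/-- The tensors of the expressions. -/
lemma exists_repr {R : RootPar} {d : Deg} {es : List Poly} (fs : List Face)
    (hpar : parOK R d = true) (hes : es.all (rootOK R d) = true) :
    ∃ b : ℕ → List ℕ → ℝ, Repr (rootCfg R d) (rootSt R d es fs) b ∧ ∀ i < es.length,
      (∀ p : Fin 4 → ℝ, evalB (degs d) [p 0, p 1, p 2, p 3] (b i) =
        R.kappa * evalR p (es.getD i (.const 0))) ∧
      ∀ a top, a < 4 → rootFace R d (es.getD i (.const 0)) a top = true →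
        ∀ r, InRange (degs d) r → OnFace (degs d) a top r → b i r = 0 := by
  have h : ∀ i, ∃ b : List ℕ → ℝ, i < es.length →
      Rep R.k R.C 1 (degs d) (rootY R d (es.getD i (.const 0))) b ∧
      (∀ p : Fin 4 → ℝ, evalB (degs d) [p 0, p 1, p 2, p 3] b =
        R.kappa * evalR p (es.getD i (.const 0))) ∧
      ∀ a top, a < 4 → rootFace R d (es.getD i (.const 0)) a top = true →
        ∀ r, InRange (degs d) r → OnFace (degs d) a top r → b r = 0 := fun i => by
    by_cases hi : i < es.length
    · have he : rootOK R d (es.getD i (.const 0)) = true := by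
        rw [List.getD_eq_getElem _ _ hi]
        exact List.all_eq_true.1 hes _ (List.getElem_mem hi)
      obtain ⟨b, hb⟩ := root_rep hpar he
      exact ⟨b, fun _ => hb⟩
    · exact ⟨0, fun h => absurd h hi⟩
  choose b hb using h
  refine ⟨b, ⟨fun i hi => ?_⟩, fun i hi => (hb i hi).2⟩
  simp only [rootSt, List.length_map] at hi
  simpa [rootSt, rootCfg, List.getD_eq_getElem?_getD, hi] using (hb i hi).1

/-- A state given by literals is good exactly when the state it equals is. -/
theorem good_of_literal {cone : V3 Bool} {cf : Cfg} {s : St} {lit : List ℕ}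
    (h : eqList s.Ys lit = true) (hg : Good cone cf ⟨lit, s.E, s.faces⟩) : Good cone cf s := by
  rw [← eq_of_eqList h] at hg
  exact hg

/-- A state given by literals is good exactly when the state it equals is. -/
theorem goodSign_of_literal {cf : Cfg} {s : St} {lit : List ℕ}
    (h : eqList s.Ys lit = true) (hg : GoodSign cf ⟨lit, s.E, s.faces⟩) : GoodSign cf s := by
  rw [← eq_of_eqList h] at hg
  exact hg

/-- A good root gives a matrix inequality on the cube, where the constraints hold. -/
theorem nonneg_of_good {cone : V3 Bool} {R : RootPar} {d : Deg} {es : List Poly} {fs : List Face}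
    (hpar : parOK R d = true) (hlen : 6 ≤ es.length) (hall : rootsOK R d es fs = true)
    (hgood : Good cone (rootCfg R d) (rootSt R d es fs))
    (p : Fin 4 → ℝ) (hp : ∀ i, p i ∈ Set.Icc (0 : ℝ) 1)
    (haux : ∀ i, 6 ≤ i → i < es.length → 0 ≤ evalR p (es.getD i (.const 0)))
    (x : Fin 3 → ℝ) (hx : ∀ i, cone.get i = true → 0 ≤ x i) :
    0 ≤ quadForm (fun i j => evalR p (es.getD (tri i j) (.const 0))) x := by
  simp only [rootsOK, Bool.and_eq_true] at hall
  obtain ⟨b, hb, he⟩ := exists_repr fs hpar hall.1
  have hκ := kappa_pos hpar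
  have h := hgood b hb (fun F hF i hi j r hr hon => ?_) [p 0, p 1, p 2, p 3]
    (by simp [rootCfg, degs])
    (by simpa [InUnit] using ⟨hp 0, hp 1, hp 2, hp 3⟩)
    (fun i h6 hi => by
      simp only [rootSt, List.length_map] at hi
      simp only [rootCfg, (he i hi).1]
      exact mul_nonneg hκ.le (haux i h6 hi)) x hx
  · simp only [rootCfg, fun i j => (he (tri i j) ((tri_lt i j).trans_le hlen)).1 p, quadForm,
      mul_assoc, ← Finset.mul_sum] at h
    simpa only [quadForm, mul_assoc] using nonneg_of_mul_nonneg_right h hκ
  · have hf := List.all_eq_true.1 hall.2 F hF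
    simp only [Bool.and_eq_true, Nat.blt_eq, List.all_eq_true] at hf
    have := hf.2 i (List.mem_finRange i) j (List.mem_finRange j)
    simp only [hi, Bool.not_true, Bool.false_or] at this
    exact (he _ ((tri_lt i j).trans_le hlen)).2 _ _ hf.1 this r hr hon

/-- A good root gives the sign of a scalar on the cube, where the constraints hold. -/
theorem nonneg_of_goodSign {R : RootPar} {d : Deg} {es : List Poly} {fs : List Face}
    (hpar : parOK R d = true) (hlen : 1 ≤ es.length) (hall : rootsSignOK R d es fs = true)
    (hgood : GoodSign (rootCfg R d) (rootSt R d es fs))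
    (p : Fin 4 → ℝ) (hp : ∀ i, p i ∈ Set.Icc (0 : ℝ) 1)
    (haux : ∀ i, 1 ≤ i → i < es.length → 0 ≤ evalR p (es.getD i (.const 0))) :
    0 ≤ evalR p (es.getD 0 (.const 0)) := by
  simp only [rootsSignOK, Bool.and_eq_true] at hall
  obtain ⟨b, hb, he⟩ := exists_repr fs hpar hall.1
  have hκ := kappa_pos hpar
  have h := hgood b hb (fun F hF h0 r hr hon => ?_) [p 0, p 1, p 2, p 3]
    (by simp [rootCfg, degs])
    (by simpa [InUnit] using ⟨hp 0, hp 1, hp 2, hp 3⟩)
    (fun i h1 hi => by
      simp only [rootSt, List.length_map] at hi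
      simp only [rootCfg, (he i hi).1]
      exact mul_nonneg hκ.le (haux i h1 hi))
  · simp only [rootCfg, (he 0 hlen).1 p] at h
    exact nonneg_of_mul_nonneg_right h hκ
  · have hf := List.all_eq_true.1 hall.2 F hF
    simp only [Bool.and_eq_true, Nat.blt_eq, h0, Bool.not_true, Bool.false_or] at hf
    exact (he 0 hlen).2 _ _ hf.1 hf.2 r hr hon

end

end Vale.Agent.P211.Cert.Check
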