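import Vale.Agent.P211.Cert.Check.Leaf

/-!
P211, checker: the scalar leaves, and the skipping of a box on which a constraint is negative.
-/

namespace Vale.Agent.P211.Cert.Check

open Finset Vale.Agent.P098.Check6

noncomputable section

lemma dc_one {u t : ℝ} (h : u + t = 1) : ∀ (n i : ℕ), dc u t n (fun _ => 1) i = 1
  | 0, _ => rfl
  | n + 1, i => by rw [dc, dc_one h n i, dc_one h n (i + 1), mul_one, mul_one, h]

lemma evalB_one : ∀ (ds : List ℕ) (xs : List ℝ), evalB ds xs (fun _ => 1) = 1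
  | [], _ => rfl
  | d :: ds, xs => by simp only [evalB, evalB_one ds]; exact dc_one (by ring) d 0

/-- A constraint which is negative on all lanes is negative on the box. -/
theorem skip_sound {cf : Cfg} {s : St} {base i : ℕ} (h : skipOk cf s base i = true)
    {b : ℕ → List ℕ → ℝ} (hb : Repr cf s b) {xs : List ℝ} (hxs : InUnit xs) :
    base ≤ i ∧ i < s.Ys.length ∧ evalB cf.ds xs (b i) < 0 := by
  simp only [skipOk, Bool.and_eq_true, Nat.blt_eq, Nat.ble_eq, Nat.beq_eq] at h
  obtain ⟨⟨⟨⟨hk, hbase⟩, hi⟩, hbd⟩, htest⟩ := h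
  refine ⟨hbase, hi, ?_⟩
  obtain ⟨f, hY, hfC, hfE⟩ := hb.rep i hi
  rw [hY] at htest
  have hHk : 2 ^ cf.k = 2 ^ (cf.k - 1) * 2 := by rw [← pow_succ]; congr 1; omega
  set H := 2 ^ (cf.k - 1) with hH
  simp only [Nat.add_eq, Nat.mul_eq, Nat.sub_eq, onesP_eq hk, topP_eq hk, pk_add,
    show ∀ a b : ℕ, Nat.land a b = a &&& b from fun _ _ => rfl] at htest hbd
  rw [sub_eq_pk (v := fun o => ((H : ℤ) + cf.C) - ((f o : ℤ) + (s.E + 1 : ℕ))) (by
      rw [cast_pk, cast_pk, pkZ_sub]
      exact pkZ_congr fun o _ => by push_cast; ring)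
      (fun o ho => by have := hfC o ho; push_cast; omega)] at htest
  have hb' : ∀ o < size cf.ds,
      (((H : ℤ) + cf.C) - ((f o : ℤ) + (s.E + 1 : ℕ))).toNat < 2 ^ cf.k := fun o ho => by omega
  rw [pk_land_top hk hb'] at htest
  have hlane : ∀ r, InRange cf.ds r → b i r ≤ -1 := fun r hr => by
    have e := pk_inj (fun o _ => by split <;> omega) (fun o _ => by omega) htest _ (flat_lt hr)
    have h1 := abs_le.1 (hfE r hr)
    have h2 : f (flat cf.ds r) + (s.E + 1) ≤ cf.C := by
      by_contra hc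
      rw [if_neg (by omega)] at e
      exact absurd e (Nat.two_pow_pos _).ne
    have h3 : (f (flat cf.ds r) : ℝ) + ((s.E : ℝ) + 1) ≤ cf.C := by exact_mod_cast h2
    linarith
  have h0 := evalB_mono cf.ds hxs (b := b i) (c := fun _ => -1 * 1) fun r hr => by
    linarith [hlane r hr]
  rw [evalB_smul, evalB_one] at h0
  linarith

/-- The scalar is nonnegative all over the box where the constraints hold. -/
def GoodSign (cf : Cfg) (s : St) : Prop :=
  ∀ b, Repr cf s b →
    (∀ F ∈ s.faces, F.rows.a0 = true → ∀ r, InRange cf.ds r → OnFace cf.ds F.axis F.top r →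
      b 0 r = 0) →
    ∀ xs : List ℝ, xs.length = cf.ds.length → InUnit xs →
      (∀ i, 1 ≤ i → i < s.Ys.length → 0 ≤ evalB cf.ds xs (b i)) → 0 ≤ evalB cf.ds xs (b 0)

/-- A passed scalar leaf. -/
theorem signLeaf_sound {cf : Cfg} {s : St} {l : Option ℕ} (h : signLeafOk cf s l = true) :
    GoodSign cf s := by
  intro b hb hface xs _ hxs haux
  cases l with
  | some i =>
    obtain ⟨h1, h2, h3⟩ := skip_sound h hb hxs
    exact absurd h3 (haux i h1 h2).not_gt
  | none =>
    simp only [signLeafOk, signOk, Bool.and_eq_true, Nat.blt_eq, Nat.beq_eq] at h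
    obtain ⟨⟨⟨hk, hlen⟩, hbd⟩, htest⟩ := h
    obtain ⟨f, hY, hfC, hfE⟩ := hb.rep 0 hlen
    rw [hY, selP_spec hk] at htest
    have hHk : 2 ^ cf.k = 2 ^ (cf.k - 1) * 2 := by rw [← pow_succ]; congr 1; omega
    set H := 2 ^ (cf.k - 1) with hH
    simp only [Nat.add_eq, Nat.mul_eq, Nat.sub_eq, onesP_eq hk, topP_eq hk, pk_add,
      show ∀ a b : ℕ, Nat.land a b = a &&& b from fun _ _ => rfl, ← hH] at htest hbd
    rw [sub_eq_pk (v := fun o => ((f o : ℤ) + H) - (cf.C + s.E : ℕ)) (by
        rw [cast_pk, cast_pk, pkZ_sub]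
        exact pkZ_congr fun o _ => by push_cast; ring)
        (fun o ho => by push_cast; omega)] at htest
    have hb' : ∀ o < size cf.ds, (((f o : ℤ) + H) - (cf.C + s.E : ℕ)).toNat < 2 ^ cf.k :=
      fun o ho => by have := hfC o ho; omega
    rw [pk_land cf.k hb' fun o _ => by split <;> omega] at htest
    refine evalB_nonneg cf.ds hxs fun r hr => ?_
    rcases Bool.eq_false_or_eq_true (live cf ⟨1, 0, 0, 0, 0, 0⟩ s.faces (flat cf.ds r)) with hl | hl
    · have e := pk_inj (fun o ho => Nat.and_le_left.trans_lt (hb' o ho))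
        (fun o _ => by split <;> omega) htest _ (flat_lt hr)
      simp only [hl, if_true] at e
      rw [hH, land_top hk (hb' _ (flat_lt hr))] at e
      have h2 : cf.C + s.E ≤ f (flat cf.ds r) := by
        by_contra hc
        rw [if_neg (by omega)] at e
        exact absurd e (Nat.two_pow_pos _).ne
      have h3 : (cf.C : ℝ) + s.E ≤ f (flat cf.ds r) := by exact_mod_cast h2
      have h1 := abs_le.1 (hfE r hr)
      linarith
    · obtain ⟨F, hF, hdead, hon⟩ := of_live_false hr hl
      simp only [deadFor, Bool.and_eq_true] at hdead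
      have h0 : F.rows.a0 = true := by
        rcases (Bool.or_eq_true _ _ ▸ V6.of_all hdead.2 0) with h0 | h0
        · exact h0
        · exact absurd h0 (by decide)
      exact (hface F hF h0 r hr hon).ge

end

end Vale.Agent.P211.Cert.Check
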