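import Vale.Agent.P211.Cert.Check.Sign

/-!
P211, checker: soundness of bisection trees.
-/

namespace Vale.Agent.P211.Cert.Check

open Vale.Agent.P098.Check6

noncomputable section

lemma step_length (cf : Cfg) (a : ℕ) (side : Bool) (s : St) :
    (step cf a side s).Ys.length = s.Ys.length := by
  simp [step]

/-- A half of a represented box. -/
lemma Repr.half {cf : Cfg} {s : St} {b : ℕ → List ℕ → ℝ} {a : ℕ} (h : stepOk cf a = true)
    (hb : Repr cf s b) (side : Bool) :
    Repr cf (step cf a side s) fun i => halfB cf.ds a side (b i) := by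
  simp only [stepOk, Bool.and_eq_true, Nat.blt_eq, Nat.ble_eq] at h
  obtain ⟨⟨⟨hk, ha⟩, hd⟩, hC⟩ := h
  refine ⟨fun i hi => ?_⟩
  rw [step_length] at hi
  have e : (step cf a side s).Ys.getD i 0 = halfPacked cf.k cf.ds a side (s.Ys.getD i 0) := by
    simp [step, List.getD_eq_getElem?_getD, hi, halfFast_eq]
  rw [e]
  exact (hb.rep i hi).half ha hd hC hk side

lemma face_half {cf : Cfg} {s : St} {a : ℕ} (ha : a < cf.ds.length) {side : Bool} {F : Face}
    (hF : F ∈ (step cf a side s).faces) {b : List ℕ → ℝ}
    (hb : F ∈ s.faces → ∀ r, InRange cf.ds r → OnFace cf.ds F.axis F.top r → b r = 0) {r : List ℕ}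
    (hr : InRange cf.ds r) (hon : OnFace cf.ds F.axis F.top r) : halfB cf.ds a side b r = 0 := by
  simp only [step, List.mem_filter, Bool.not_eq_true', Bool.and_eq_false_iff] at hF
  refine halfB_face ha (hb hF.1) ?_ hr hon
  intro hac
  rcases hF.2 with h1 | h1
  · simp [hac] at h1
  · exact (bne_eq_false_iff_eq.1 h1).symm

/-- Both halves give the box. -/
theorem good_node {cone : V3 Bool} {cf : Cfg} {s : St} {a : ℕ} (h : stepOk cf a = true)
    (hl : Good cone cf (step cf a false s)) (hr : Good cone cf (step cf a true s)) :
    Good cone cf s := by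
  intro b hb hface xs hlen hxs haux x hx
  have ha : a < cf.ds.length := by
    simp only [stepOk, Bool.and_eq_true, Nat.blt_eq] at h
    exact h.1.1.2
  refine forall_halves (p := fun xs =>
      (∀ i, 6 ≤ i → i < s.Ys.length → 0 ≤ evalB cf.ds xs (b i)) →
        0 ≤ quadForm (fun i j => evalB cf.ds xs (b (tri i j))) x) a
    (fun side ys hyl hys hax => ?_) xs hlen hxs haux
  have hg : Good cone cf (step cf a side s) := by cases side <;> assumption
  have := hg _ (hb.half h side)
    (fun F hF i hi j r hr hon => face_half ha hF (fun hF' r hr hon => hface F hF' i hi j r hr hon) hr hon)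
    ys hyl hys
    (fun i h6 hi => by
      rw [evalB_halfB cf.ds a side ys _ ha hyl]
      exact hax i h6 (by rwa [step_length] at hi)) x hx
  simpa only [evalB_halfB cf.ds a side ys _ ha hyl] using this

/-- Both halves give the box. -/
theorem goodSign_node {cf : Cfg} {s : St} {a : ℕ} (h : stepOk cf a = true)
    (hl : GoodSign cf (step cf a false s)) (hr : GoodSign cf (step cf a true s)) :
    GoodSign cf s := by
  intro b hb hface xs hlen hxs haux
  have ha : a < cf.ds.length := by
    simp only [stepOk, Bool.and_eq_true, Nat.blt_eq] at h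
    exact h.1.1.2
  refine forall_halves (p := fun xs =>
      (∀ i, 1 ≤ i → i < s.Ys.length → 0 ≤ evalB cf.ds xs (b i)) →
        0 ≤ evalB cf.ds xs (b 0)) a
    (fun side ys hyl hys hax => ?_) xs hlen hxs haux
  have hg : GoodSign cf (step cf a side s) := by cases side <;> assumption
  have := hg _ (hb.half h side)
    (fun F hF h0 r hr hon => face_half ha hF (fun hF' r hr hon => hface F hF' h0 r hr hon) hr hon)
    ys hyl hys
    (fun i h1 hi => by
      rw [evalB_halfB cf.ds a side ys _ ha hyl]
      exact hax i h1 (by rwa [step_length] at hi))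
  simpa only [evalB_halfB cf.ds a side ys _ ha hyl] using this

/-- A passed matrix leaf. -/
theorem leaf_sound {cone : V3 Bool} {cf : Cfg} {s : St} {l : Leaf}
    (h : leafOk cone cf s l = true) : Good cone cf s := by
  cases l with
  | psd d => exact psd_sound h
  | skip i =>
    intro b hb _ xs _ hxs haux x _
    obtain ⟨h1, h2, h3⟩ := skip_sound (base := 6) h hb hxs
    exact absurd h3 (haux i h1 h2).not_gt

/-- A passed matrix tree. -/
theorem check_sound {cone : V3 Bool} {cf : Cfg} : ∀ (t : Tree Leaf) {s : St},
    check (leafOk cone cf) cf t s = true → Good cone cf s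
  | .leaf _, _, h => leaf_sound h
  | .node a l r, _, h => by
    simp only [check, Bool.and_eq_true] at h
    exact good_node h.1.1 (check_sound l h.1.2) (check_sound r h.2)

/-- A passed scalar tree. -/
theorem checkSign_sound {cf : Cfg} : ∀ (t : Tree (Option ℕ)) {s : St},
    check (signLeafOk cf) cf t s = true → GoodSign cf s
  | .leaf _, _, h => signLeaf_sound h
  | .node a l r, _, h => by
    simp only [check, Bool.and_eq_true] at h
    exact goodSign_node h.1.1 (checkSign_sound l h.1.2) (checkSign_sound r h.2)

end

end Vale.Agent.P211.Cert.Check
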